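import Vale.Agent.P281.H511.U.Form
import Vale.Agent.P281.H713.GBound

/-!
# P281, project T-U (helper511): bounds for the relative forms on tame slices
-/

open scoped Manifold ContDiff Topology ENNReal NNReal
open Set Filter Metric Module MeasureTheory

namespace Vale.Agent.P281.H511.U

open Vale.Agent.P281 Vale.Agent.P281.MF Vale.Agent.P281.ISO Vale.Agent.P281.ELL
open Vale.Agent.P281.H713 Vale.Agent.P281.H64.TU

set_option linter.unusedSectionVars false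

section Bound

variable {E E' : Type} [NormedAddCommGroup E] [NormedSpace ℂ E] [FiniteDimensional ℂ E]
  [NormedAddCommGroup E'] [NormedSpace ℂ E'] [FiniteDimensional ℂ E']
variable {X Y : Type} [TopologicalSpace X] [ChartedSpace E X] [IsManifold 𝓘(ℂ, E) ω X]
  [TopologicalSpace Y] [ChartedSpace E' Y] [IsManifold 𝓘(ℂ, E') ω Y]
variable {V : Type} [NormedAddCommGroup V] [InnerProductSpace ℂ V] [FiniteDimensional ℂ V]
variable {n d r₁ : ℕ} {Tt : Tame (Fin d → ℂ) X} {Q : (Fin n → ℝ) → (Fin n → ℝ) → ℝ}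
variable {f : X → Y} {S : Set Y} {ι : Type} {U : ι → Set Y}
  {π : ι → Y → ((Fin n → ℝ) ≃L[ℝ] V)} {α : ι → X → V}

/-- the lift of the map to the torus along a polydisc -/
theorem poly_lift (hC : IsAlbR E E' d r₁ Tt f S Q U π α) {q : (Fin d → ℂ) → X}
    {v₀ : Fin d → ℂ} {r : ℝ} (hq : IsPolydisc E f q v₀ r) {a : ι} (ha : f (q v₀) ∈ U a) :
    ∃ h : (Fin d → ℂ) → V, DifferentiableOn ℂ h (ball v₀ r) ∧
      (∀ v ∈ ball v₀ r, IsCongr (π a (f (q v₀))) (α a (q v)) (h v)) := by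
  obtain ⟨hq1, hq2, hq3⟩ := hq
  set y' := f (q v₀) with hy'
  obtain ⟨ε, hε, hdis⟩ := lam_discrete (π a y')
  have : CompleteSpace V := FiniteDimensional.complete ℂ V
  obtain ⟨H, hH1, hH2, -⟩ := Vale.Agent.P281.H713.exists_lift (E := Fin d → ℂ) (p := cls (π a y'))
    (Λ := Lam (π a y')) hε hdis
    (fun w w' => cls_eq) (B := ball v₀ r) isOpen_ball (convex_ball v₀ r)
    (Q := fun v => cls (π a y') (α a (q v)))
    (fun v hv => by
      have hv' : f (q v) ∈ U a := by rw [hq3 v hv]; exact ha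
      obtain ⟨β, h4, h5⟩ := hC.lift a (q v) hv'
      have h6 := hq1 v hv
      refine ⟨fun z => β (q z), (slice_fderiv h6 h4).1, ?_⟩
      filter_upwards [h6.continuousAt.eventually h5, isOpen_ball.mem_nhds hv] with z h7 h8
      rw [hq3 z h8] at h7
      exact (congr_iff_cls.1 h7).symm)
  exact ⟨H, hH1, fun v hv => congr_iff_cls.2 (hH2 v hv).symm⟩

variable {T : ((Fin d → ℂ) → V) → (Fin d → ℂ) → ℂ} {N k : ℕ}
  {π₀ : (Fin n → ℝ) ≃L[ℝ] V} {G₀ : V ≃L[ℂ] V}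

/-- the uniform bound -/
theorem form_boundG (hC : IsAlbR E E' d r₁ Tt f S Q U π α) (hn : 0 < n)
    (e₀ : E ≃L[ℂ] (E' × (Fin d → ℂ))) (hT : IsTm N k T) (hk : 2 * (n * n + 1) ≤ k)
    (h₀ : IsPol Q π₀ G₀) {Θ : X → ℂ}
    (hΘ : ∀ a x, f x ∈ U a → ∀ β, Lft E f π α a x β → ∀ q v P, SlG E f q v x P →
      Θ x = gval Q π₀ G₀ T (π a (f x)) (fun t => β (q t)) v *
        JP e₀ (dM E E' f x) P ^ N) {r κ : ℝ} (hr : 0 < r)
    (hκ : 0 < κ) : ∃ C : ℝ, ∀ (v₀ : Fin d → ℂ) (q : (Fin d → ℂ) → X),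
      (∀ v ∈ ball v₀ r, ContMDiffAt 𝓘(ℂ, Fin d → ℂ) 𝓘(ℂ, E) ω q v) → InjOn q (ball v₀ r) →
      (∀ v ∈ ball v₀ r, f (q v) = f (q v₀)) → f (q v₀) ∉ S → Tt κ q v₀ r → ∀ P : E →L[ℂ] (Fin d → ℂ),
      P.comp (mfderiv 𝓘(ℂ, Fin d → ℂ) 𝓘(ℂ, E) q v₀ : (Fin d → ℂ) →L[ℂ] E) =
        ContinuousLinearMap.id ℂ (Fin d → ℂ) →
      ‖Θ (q v₀)‖ ≤ C * ‖JP e₀ (dM E E' f (q v₀)) P ^ N‖ := by
  obtain ⟨M, hM⟩ := hC.bound r κ hr hκ
  have hr2 : 0 < r / 2 := half_pos hr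
  obtain ⟨K, hK0, hK⟩ := gval_bound (Q := Q) (π₀ := π₀) (G₀ := G₀) hT hn hr2
    (le_max_right M 0) hk h₀
  refine ⟨K, fun v₀ q h1 h2 h3 h4 hTt P h5 => ?_⟩
  obtain ⟨a, ha⟩ := (hC.cover _).1 h4
  obtain ⟨h, hh1, hh2⟩ := poly_lift hC ⟨h1, h2, h3⟩ ha
  obtain ⟨β, hβ⟩ := hC.lift a (q v₀) ha
  have hβ : Lft E f π α a (q v₀) β := hβ
  obtain ⟨G, hG⟩ : ∃ G, IsPol Q (π a (f (q v₀))) G := hC.polarized a _ ha
  have hv₀ : v₀ ∈ ball v₀ r := mem_ball_self hr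
  have hqc := (h1 v₀ hv₀).continuousAt
  have hslc : SlG E f q v₀ (q v₀) P :=
    ⟨rfl, h1 v₀ hv₀, eventually_of_mem (ball_mem_nhds v₀ hr) h3, h5⟩
  have : CompleteSpace V := FiniteDimensional.complete ℂ V
  have hhan : ∀ v ∈ ball v₀ r, ContDiffAt ℂ ω h v := fun v hv =>
    (MF.analyticAt_of_differentiableOn isOpen_ball hh1 hv).contDiffAt
  have hcv : gval Q π₀ G₀ T (π a (f (q v₀))) (fun t => β (q t)) v₀ =
      gval Q π₀ G₀ T (π a (f (q v₀))) h v₀ := by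
    have h6 : (fun t => β (q t)) =ᶠ[𝓝 v₀] fun z => h z + (β (q v₀) - h v₀) := by
      refine lift_constG (P := π a (f (q v₀))) (w := fun z => α a (q z))
        (hh1.continuousOn.continuousAt (ball_mem_nhds v₀ hr))
        (slice_fderiv (h1 v₀ hv₀) hβ.1).1.continuousAt
        (eventually_of_mem (ball_mem_nhds v₀ hr) hh2) ?_
      filter_upwards [hqc.eventually hβ.2, ball_mem_nhds v₀ hr] with z h7 h8
      rw [h3 z h8] at h7
      exact h7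
    rw [gval_congr hT h6, gval_shift hT _ (hhan v₀ hv₀)]
  rw [hΘ a _ ha β hβ q v₀ P hslc, hcv, norm_mul]
  refine mul_le_mul_of_nonneg_right ?_ (norm_nonneg _)
  have hsub : ball v₀ (r / 2) ⊆ ball v₀ r := ball_subset_ball (by linarith)
  refine hK _ G hG h v₀ (hh1.mono hsub) fun v hv => ?_
  exact (hM a q v₀ ⟨h1, h2, h3⟩ hTt ha h hh1 hh2 G hG v hv).trans (le_max_left _ _)

theorem relFormG (hC : IsAlbR E E' d r₁ Tt f S Q U π α) (hn : 0 < n)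
    (hf : ∀ x, HolM E E' f x) (e₀ : E ≃L[ℂ] (E' × (Fin d → ℂ))) (hT : IsTm N k T)
    (hk : 2 * (n * n + 1) ≤ k) (h₀ : IsPol Q π₀ G₀) {Θ : X → ℂ}
    (hΘ : ∀ a x, f x ∈ U a → ∀ β, Lft E f π α a x β → ∀ q v P, SlG E f q v x P →
      Θ x = gval Q π₀ G₀ T (π a (f x)) (fun t => β (q t)) v *
        JP e₀ (dM E E' f x) P ^ N) :
    RelFormT Tt f S e₀ N ∅ (fun _ => 0) Θ := by
  refine ⟨hol_of_local hf e₀ ?_, ?_⟩
  · intro x hx T eD _ _
    obtain ⟨ζ, hζ, hinj⟩ := hC.coord x hx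
    obtain ⟨c, hc, hev⟩ := form_localG hC hn hf e₀ hT (by omega) h₀ hΘ hx hζ hinj
    refine ⟨ζ, c, hζ, hc, ?_⟩
    filter_upwards [hev] with z h4 _ _
    simp only [pow_zero, Finset.prod_const_one, mul_one]
    exact h4
  · intro r κ hr hκ
    obtain ⟨C, hC'⟩ := form_boundG hC hn e₀ hT hk h₀ hΘ hr hκ
    exact ⟨C, fun v₀ q h1 h2 h3 h4 _ h5 P h6 => hC' v₀ q h1 h2 h3 h4 h5 P h6⟩

end Bound

end Vale.Agent.P281.H511.U
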