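import Vale.Agent.P281.H713.GNC3

/-!
# P281, project T-U (helper511): the terms of the series, for Gauss maps of any rank (FROZEN)

Derivatives with respect to the coordinates `m_1 ∘ h, …, m_d ∘ h` are given by brackets.
-/

open Vale.Agent.P281.H713
open scoped Topology ContDiff
open Set Filter Module Metric

noncomputable section

namespace Vale.Agent.P281.H511.U

section Br

variable {d : ℕ} {W : Type*} [NormedAddCommGroup W] [NormedSpace ℂ W]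

/-- The weights of the rows of the frames. -/
def om (d : ℕ) : Fin (d + 1) → ℕ := Fin.cons 1 fun _ => 0

/-- The bracket of `A` and `g`, of weight `w`, with `g` replacing `A j`. -/
def brk (ε : Fin d → W) (A : Fin (d + 1) → W → ℂ) (w : ℂ) (j : Fin (d + 1))
    (g : W → ℂ) (p : W) : ℂ :=
  ((Matrix.of fun i => jr ε (om d i : ℂ) (A i) p).updateRow j (jr ε w g p)).det

/-- The weights of the iterated brackets. -/
def wt {d : ℕ} : List (Fin (d + 1)) → ℕ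
  | [] => 1
  | j :: l => wt l + if j = 0 then 1 else 2

/-- Iterated brackets. -/
def wd (ε : Fin d → W) (A : Fin (d + 1) → W → ℂ) : List (Fin (d + 1)) → (W → ℂ) → W → ℂ
  | [], g => g
  | j :: l, g => brk ε A (wt l : ℕ) j (wd ε A l g)

end Br

section KK

variable {d g : ℕ} {V : Type} [NormedAddCommGroup V] [InnerProductSpace ℂ V]
  [FiniteDimensional ℂ V]

/-- The frame `minor m h`, `m_1 ∘ h`, …, `m_d ∘ h`. -/
def fr (m : Fin d → (V →L[ℂ] ℂ)) (h : (Fin d → ℂ) → V) : Fin (d + 1) → (Fin d → ℂ) → ℂ :=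
  Fin.cons (minor m h) fun j v => m j (h v)

/-- Parameters. -/
abbrev Tp (d g : ℕ) (V : Type) [NormedAddCommGroup V] [InnerProductSpace ℂ V] : Type :=
  (Fin d → (V →L[ℂ] ℂ)) × (Fin g → Fin d → (V →L[ℂ] ℂ))

/-- The generalized Wronskian. -/
def KK (e : Basis (Fin g) ℂ V) (i₀ : Fin g → Fin d) (l : Fin g → List (Fin (d + 1)))
    (τ : Tp d g V) (h : (Fin d → ℂ) → V) (v : Fin d → ℂ) : ℂ :=
  (Matrix.of fun i s => wd bs (fr τ.1 h) (l i)
    (minor (Function.update (τ.2 i) (i₀ i) (cL e s)) h) v).det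

/-- Composition of the parameters with a linear map. -/
def tcomp (τ : Tp d g V) (C : V →L[ℂ] V) : Tp d g V :=
  (fun a => (τ.1 a).comp C, fun i a => (τ.2 i a).comp C)

/-- The weight of the generalized Wronskian. -/
def nk (l : Fin g → List (Fin (d + 1))) : ℕ := ∑ i, wt (l i)

/-- The terms of the series. -/
def tm (e : Basis (Fin g) ℂ V) (i₀ : Fin g → Fin d) (l : Fin g → List (Fin (d + 1)))
    (τ : Tp d g V) (k : ℕ) (Ψ : ((Fin d → ℂ) → V) → (Fin d → ℂ) → ℂ) (h : (Fin d → ℂ) → V)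
    (v : Fin d → ℂ) : ℂ :=
  KK e i₀ l τ h v ^ k * Ψ h v

/-- What is needed about the terms `T` of a series: covariance with weight `N`, holomorphy, and the
bound `‖det C‖ ^ k` for contractions. -/
structure IsTm (N k : ℕ) (T : ((Fin d → ℂ) → V) → (Fin d → ℂ) → ℂ) : Prop where
  congr : ∀ (h h' : (Fin d → ℂ) → V) (v : Fin d → ℂ), h =ᶠ[𝓝 v] h' → T h v = T h' v
  comp : ∀ (h : (Fin d → ℂ) → V) (φ : (Fin d → ℂ) → (Fin d → ℂ)) (v : Fin d → ℂ),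
    ContDiffAt ℂ ω φ v → (fderiv ℂ φ v).det ≠ 0 → ContDiffAt ℂ ω h (φ v) →
    T (fun u => h (φ u)) v = (fderiv ℂ φ v).det ^ N * T h (φ v)
  shift : ∀ (h : (Fin d → ℂ) → V) (v : Fin d → ℂ) (c : V), ContDiffAt ℂ ω h v →
    T (fun u => h u + c) v = T h v
  joint : ∀ {P : Type} [NormedAddCommGroup P] [NormedSpace ℂ P] (B : P × (Fin d → ℂ) → V)
    (x₀ : P × (Fin d → ℂ)), ContDiffAt ℂ ω B x₀ →
    ContDiffAt ℂ ω (fun x : P × (Fin d → ℂ) => T (fun u => B (x.1, u)) x.2) x₀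
  bound : ∀ r R : ℝ, 0 < r → 0 ≤ R → ∃ K : ℝ, 0 ≤ K ∧ ∀ C : V →L[ℂ] V, ‖C‖ ≤ 1 →
    ∀ (h : (Fin d → ℂ) → V) (v₀ : Fin d → ℂ), DifferentiableOn ℂ h (ball v₀ r) →
    (∀ v ∈ ball v₀ r, ‖fderiv ℂ h v‖ ≤ R) → ‖T (fun u => C (h u)) v₀‖ ≤ K * ‖C.det‖ ^ k

/-- **U1a** (`H713/{GBr,GBr2,GPl,GTerm}`): the terms. -/
def TmStmt : Prop :=
  ∀ (d g : ℕ) (V : Type) [NormedAddCommGroup V] [InnerProductSpace ℂ V] [FiniteDimensional ℂ V]
    (e : Basis (Fin g) ℂ V) (i₀ : Fin g → Fin d) (l : Fin g → List (Fin (d + 1))) (τ : Tp d g V)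
    (k D : ℕ) (Ψ : ((Fin d → ℂ) → V) → (Fin d → ℂ) → ℂ), IsHP D Ψ →
    IsTm (k * nk l + D) k (tm e i₀ l τ k Ψ)

/-- **U1b** (`KK_map`). -/
def MapStmt : Prop :=
  ∀ (d g : ℕ) (V : Type) [NormedAddCommGroup V] [InnerProductSpace ℂ V] [FiniteDimensional ℂ V]
    (e : Basis (Fin g) ℂ V) (i₀ : Fin g → Fin d) (l : Fin g → List (Fin (d + 1))) (τ : Tp d g V)
    (h : (Fin d → ℂ) → V) (v : Fin d → ℂ), ContDiffAt ℂ ω h v → ∀ C : V →L[ℂ] V,
    KK e i₀ l τ (fun u => C (h u)) v = C.det * KK e i₀ l (tcomp τ C) h v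

/-- **U1c** (`KK_joint`). -/
def JointStmt : Prop :=
  ∀ (d g : ℕ) (V P : Type) [NormedAddCommGroup V] [InnerProductSpace ℂ V]
    [FiniteDimensional ℂ V] [NormedAddCommGroup P] [NormedSpace ℂ P]
    (e : Basis (Fin g) ℂ V) (i₀ : Fin g → Fin d) (l : Fin g → List (Fin (d + 1)))
    (τ : P → Tp d g V) (B : P × (Fin d → ℂ) → V) (x₀ : P × (Fin d → ℂ)),
    ContDiffAt ℂ ω τ x₀.1 → ContDiffAt ℂ ω B x₀ →
    ContDiffAt ℂ ω (fun x : P × (Fin d → ℂ) => KK e i₀ l (τ x.1) (fun u => B (x.1, u)) x.2) x₀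

/-- **U1d** (`KK_ne`): nonvanishing of the generalized Wronskian. -/
def NeStmt : Prop :=
  ∀ (d g : ℕ) (V : Type) [NormedAddCommGroup V] [InnerProductSpace ℂ V] [FiniteDimensional ℂ V]
    (e : Basis (Fin g) ℂ V) (h : (Fin d → ℂ) → V) (v₁ : Fin d → ℂ) (m : Fin d → (V →L[ℂ] ℂ)),
    0 < d → ContDiffAt ℂ ω h v₁ → minor m h v₁ ≠ 0 →
    (∀ l : V →L[ℂ] ℂ, (∀ᶠ v in 𝓝 v₁, ∀ ξ, l (fderiv ℂ h v ξ) = 0) → l = 0) →
    ∃ (i₀ : Fin g → Fin d) (l : Fin g → List (Fin (d + 1))) (μ : Fin g → Fin d → (V →L[ℂ] ℂ)),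
      KK e i₀ l (m, μ) h v₁ ≠ 0

end KK

end Vale.Agent.P281.H511.U
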